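import Vale.Agent.Lib.P309.Defs

namespace Vale.Agent.Lib.P309

open MeasureTheory Metric Set Pointwise

/-- The cone over a cap of chordal radius `ε` is covered by balls of radius `2ε`
centred on the segment from `0` to the centre of the cap. -/
theorem cone_subset (d : ℕ) (u : Sp d) (hu : ‖u‖ = 1) (ε : ℝ) (hε : 0 < ε) :
    Ioo (0 : ℝ) 1 • ((↑) '' {s : sphere (0 : Sp d) 1 | ‖(s : Sp d) - u‖ ≤ ε}) ⊆
      ⋃ k ∈ Finset.range (⌊1 / ε⌋₊ + 1), ball (((k : ℝ) * ε) • u) (2 * ε) := by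
  rintro z ⟨r, hr, y, ⟨s, hs, rfl⟩, rfl⟩
  simp only [mem_setOf_eq] at hs
  have hr0 : 0 < r := hr.1
  have hr1 : r < 1 := hr.2
  set k : ℕ := ⌊r / ε⌋₊ with hk
  have hkle : (k : ℝ) ≤ r / ε := Nat.floor_le (by positivity)
  have hklt : r / ε < (k : ℝ) + 1 := Nat.lt_floor_add_one _
  have hk1 : k ≤ ⌊1 / ε⌋₊ := Nat.floor_le_floor (by gcongr)
  simp only [mem_iUnion, Finset.mem_range, mem_ball, exists_prop]
  refine ⟨k, by omega, ?_⟩
  have h1 : (k : ℝ) * ε ≤ r := by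
    have := mul_le_mul_of_nonneg_right hkle hε.le
    rwa [div_mul_cancel₀ _ hε.ne'] at this
  have h2 : r < (k : ℝ) * ε + ε := by
    have := mul_lt_mul_of_pos_right hklt hε
    rw [div_mul_cancel₀ _ hε.ne'] at this
    linarith
  have e : r • (s : Sp d) - ((k : ℝ) * ε) • u =
      r • ((s : Sp d) - u) + (r - (k : ℝ) * ε) • u := by
    rw [smul_sub, sub_smul]; abel
  rw [dist_eq_norm]
  change ‖r • (s : Sp d) - ((k : ℝ) * ε) • u‖ < 2 * ε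
  rw [e]
  calc ‖r • ((s : Sp d) - u) + (r - (k : ℝ) * ε) • u‖
      ≤ ‖r • ((s : Sp d) - u)‖ + ‖(r - (k : ℝ) * ε) • u‖ := norm_add_le _ _
    _ = r * ‖(s : Sp d) - u‖ + (r - (k : ℝ) * ε) := by
        rw [norm_smul, norm_smul, hu, mul_one, Real.norm_of_nonneg hr0.le,
          Real.norm_of_nonneg (by linarith)]
    _ ≤ 1 * ε + (r - (k : ℝ) * ε) := by
        gcongr
    _ < 2 * ε := by linarith

/-- Volume of the covering union. -/
theorem vol_cover_le (d : ℕ) (u : Sp d) (ε : ℝ) (hε : 0 < ε) :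
    (volume : Measure (Sp d))
        (⋃ k ∈ Finset.range (⌊1 / ε⌋₊ + 1), ball (((k : ℝ) * ε) • u) (2 * ε)) ≤
      ((⌊1 / ε⌋₊ + 1 : ℕ) : ENNReal) * (ENNReal.ofReal ((2 * ε) ^ d) *
        (volume : Measure (Sp d)) (ball 0 1)) := by
  refine (measure_biUnion_finset_le _ _).trans ?_
  have : ∀ k ∈ Finset.range (⌊1 / ε⌋₊ + 1),
      (volume : Measure (Sp d)) (ball (((k : ℝ) * ε) • u) (2 * ε)) =
        ENNReal.ofReal ((2 * ε) ^ d) * (volume : Measure (Sp d)) (ball 0 1) := by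
    intro k _
    rw [Measure.addHaar_ball_of_pos _ _ (by positivity)]
    simp
  rw [Finset.sum_congr rfl this]
  simp

theorem ennreal_aux (D V W c : ENNReal) (hD0 : D ≠ 0) (hDt : D ≠ ⊤) (hV0 : V ≠ 0)
    (hVt : V ≠ ⊤) (h : W ≤ c * V) : (D * V)⁻¹ * (D * W) ≤ c := by
  have h1 : (D * V)⁻¹ * (D * V) = 1 :=
    ENNReal.inv_mul_cancel (mul_ne_zero hD0 hV0) (ENNReal.mul_ne_top hDt hVt)
  calc (D * V)⁻¹ * (D * W) ≤ (D * V)⁻¹ * (D * (c * V)) := by gcongr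
    _ = ((D * V)⁻¹ * (D * V)) * c := by ring
    _ = c := by rw [h1, one_mul]

theorem real_aux (d : ℕ) (hd : 1 ≤ d) (ε : ℝ) (hε : 0 < ε) (hε1 : ε ≤ 1) :
    ((⌊1 / ε⌋₊ + 1 : ℕ) : ℝ) * (2 * ε) ^ d ≤ 2 ^ (d + 1) * ε ^ (d - 1) := by
  have hfl : ((⌊1 / ε⌋₊ : ℕ) : ℝ) ≤ 1 / ε := Nat.floor_le (by positivity)
  obtain ⟨e, rfl⟩ : ∃ e, d = e + 1 := ⟨d - 1, by omega⟩
  have hεd : 0 ≤ ε ^ e := by positivity
  have h3 : ((⌊1 / ε⌋₊ : ℕ) : ℝ) * ε ≤ 1 := by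
    have := mul_le_mul_of_nonneg_right hfl hε.le
    rwa [div_mul_cancel₀ _ hε.ne'] at this
  have h4 : (((⌊1 / ε⌋₊ : ℕ) : ℝ) + 1) * ε ≤ 2 := by nlinarith
  have h5 : (0 : ℝ) ≤ 2 ^ (e + 1) * ε ^ e := by positivity
  have e1 : e + 1 - 1 = e := by omega
  rw [e1]
  push_cast
  calc (((⌊1 / ε⌋₊ : ℕ) : ℝ) + 1) * (2 * ε) ^ (e + 1)
      = 2 ^ (e + 1) * ε ^ e * ((((⌊1 / ε⌋₊ : ℕ) : ℝ) + 1) * ε) := by
        rw [mul_pow, pow_succ ε e]; ring
    _ ≤ 2 ^ (e + 1) * ε ^ e * 2 := mul_le_mul_of_nonneg_left h4 h5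
    _ = 2 ^ (e + 1 + 1) * ε ^ e := by ring

/-- The normalized surface measure of a cap of chordal radius `ε ≤ 1` is at most
`2^(d+1) ε^(d-1)`. -/
theorem cap_le (d : ℕ) (hd : 1 ≤ d) (u : Sp d) (hu : ‖u‖ = 1) (ε : ℝ) (hε : 0 < ε)
    (hε1 : ε ≤ 1) :
    sphereUniform d {s : sphere (0 : Sp d) 1 | ‖(s : Sp d) - u‖ ≤ ε} ≤
      ENNReal.ofReal (2 ^ (d + 1) * ε ^ (d - 1)) := by
  have hdim : Module.finrank ℝ (Sp d) = d := by simp
  have hmeas : MeasurableSet {s : sphere (0 : Sp d) 1 | ‖(s : Sp d) - u‖ ≤ ε} := by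
    apply IsClosed.measurableSet
    exact isClosed_le (by fun_prop) continuous_const
  have hnt : Nontrivial (Sp d) := by
    have : 0 < Module.finrank ℝ (Sp d) := by rw [hdim]; omega
    exact Module.nontrivial_of_finrank_pos (R := ℝ) this
  have hV0 : (volume : Measure (Sp d)) (ball 0 1) ≠ 0 :=
    (measure_ball_pos _ _ one_pos).ne'
  have hVtop : (volume : Measure (Sp d)) (ball 0 1) ≠ ⊤ := measure_ball_lt_top.ne
  have hd0 : ((d : ℕ) : ENNReal) ≠ 0 := by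
    simp only [ne_eq, Nat.cast_eq_zero]; omega
  have hdtop : ((d : ℕ) : ENNReal) ≠ ⊤ := ENNReal.natCast_ne_top d
  have hle := (measure_mono (cone_subset d u hu ε hε)).trans (vol_cover_le d u ε hε)
  rw [← mul_assoc] at hle
  unfold sphereUniform sphereArea
  rw [Measure.smul_apply, Measure.toSphere_apply_univ, Measure.toSphere_apply' _ hmeas, hdim,
    smul_eq_mul]
  refine (ennreal_aux _ _ _ _ hd0 hdtop hV0 hVtop hle).trans ?_
  rw [← ENNReal.ofReal_natCast, ← ENNReal.ofReal_mul (by positivity)]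
  exact ENNReal.ofReal_le_ofReal (real_aux d hd ε hε hε1)

end Vale.Agent.Lib.P309
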