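import Mathlib

namespace Vale.Agent.Lib.P309

open MeasureTheory Metric Set ProbabilityTheory

/-- The ambient Euclidean space `ℝ^d`. -/
abbrev Sp (d : ℕ) := EuclideanSpace ℝ (Fin d)

/-- The unit sphere of `ℝ^d`, as a type. -/
abbrev Sph (d : ℕ) := sphere (0 : Sp d) 1

/-- The surface measure on the unit sphere of `ℝ^d` (Mathlib's `Measure.toSphere` of Lebesgue
measure). -/
noncomputable def sphereArea (d : ℕ) : Measure (Sph d) :=
  (volume : Measure (Sp d)).toSphere

/-- The uniform probability measure on the unit sphere of `ℝ^d`: the surface measure divided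
by its total mass. -/
noncomputable def sphereUniform (d : ℕ) : Measure (Sph d) :=
  (sphereArea d univ)⁻¹ • sphereArea d

/-- The unit vectors `u` at angle at most `ε` from the unit vector `s`. -/
def capAround (d : ℕ) (ε : ℝ) (s : Sph d) : Set (Sph d) :=
  {u | Real.arccos (inner ℝ (u : Sp d) (s : Sp d)) ≤ ε}

/-- The success probability at accuracy `ε`: the signal is `S`, the final state is `J`, and
the output is drawn from `κ (J ω)`; this is the expected `κ (J)`-mass of the cap of angular
radius `ε` around `S`. -/
noncomputable def successProb {d N : ℕ} {Ω : Type*} [MeasurableSpace Ω] (P : Measure Ω)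
    (S : Ω → Sph d) (J : Ω → Fin N) (κ : Kernel (Fin N) (Sph d)) (ε : ℝ) : ENNReal :=
  ∫⁻ ω, κ (J ω) (capAround d ε (S ω)) ∂P

end Vale.Agent.Lib.P309
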