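import Vale.Agent.Lib.P309.Cap

namespace Vale.Agent.Lib.P309

open MeasureTheory Metric Set ProbabilityTheory

theorem sphereUniform_univ (d : ℕ) (hd : 1 ≤ d) : sphereUniform d univ = 1 := by
  have hdim : Module.finrank ℝ (Sp d) = d := by simp
  have hnt : Nontrivial (Sp d) := by
    have : 0 < Module.finrank ℝ (Sp d) := by rw [hdim]; omega
    exact Module.nontrivial_of_finrank_pos (R := ℝ) this
  unfold sphereUniform sphereArea
  rw [Measure.smul_apply, smul_eq_mul]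
  refine ENNReal.inv_mul_cancel ?_ (measure_ne_top _ _)
  rw [Measure.measure_univ_ne_zero]
  exact Measure.toSphere_ne_zero _

theorem isProbabilityMeasure_sphereUniform (d : ℕ) (hd : 1 ≤ d) :
    IsProbabilityMeasure (sphereUniform d) :=
  ⟨sphereUniform_univ d hd⟩

/-- The set of pairs `(s, u)` of unit vectors at angle at most `ε`. -/
def closeSet (d : ℕ) (ε : ℝ) : Set (sphere (0 : Sp d) 1 × sphere (0 : Sp d) 1) :=
  {p | Real.arccos (inner ℝ (p.2 : Sp d) (p.1 : Sp d)) ≤ ε}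

theorem measurableSet_closeSet (d : ℕ) (ε : ℝ) : MeasurableSet (closeSet d ε) := by
  apply IsClosed.measurableSet
  apply isClosed_le _ continuous_const
  apply Real.continuous_arccos.comp
  fun_prop

/-- Angle at most `ε ≤ 1` implies chordal distance at most `ε`. -/
theorem norm_sub_le_of_arccos (d : ℕ) (u s : Sp d) (hu : ‖u‖ = 1) (hs : ‖s‖ = 1) (ε : ℝ)
    (h : Real.arccos (inner ℝ u s) ≤ ε) : ‖s - u‖ ≤ ε := by
  have hc : |inner ℝ u s| ≤ 1 := by
    have := abs_real_inner_le_norm u s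
    rwa [hu, hs, mul_one] at this
  have hc1 := (abs_le.mp hc).1
  have hc2 := (abs_le.mp hc).2
  have hcos : Real.cos (Real.arccos (inner ℝ u s)) = inner ℝ u s := Real.cos_arccos hc1 hc2
  have h0 : 0 ≤ Real.arccos (inner ℝ u s) := Real.arccos_nonneg _
  have hlow := Real.one_sub_sq_div_two_le_cos (x := Real.arccos (inner ℝ u s))
  rw [hcos] at hlow
  have hsq : ‖s - u‖ ^ 2 = 2 - 2 * inner ℝ u s := by
    rw [norm_sub_sq_real, hu, hs, real_inner_comm]; ring
  by_contra hh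
  push Not at hh
  have hn := norm_nonneg (s - u)
  nlinarith

theorem section_le (d : ℕ) (hd : 1 ≤ d) (ε : ℝ) (hε : 0 < ε) (hε1 : ε ≤ 1)
    (u : sphere (0 : Sp d) 1) :
    sphereUniform d ((fun s => (s, u)) ⁻¹' closeSet d ε) ≤
      ENNReal.ofReal (2 ^ (d + 1) * ε ^ (d - 1)) := by
  have hu : ‖(u : Sp d)‖ = 1 := by simp
  refine (measure_mono ?_).trans (cap_le d hd (u : Sp d) hu ε hε hε1)
  intro s hs
  have hs1 : ‖(s : Sp d)‖ = 1 := by simp
  exact norm_sub_le_of_arccos d (u : Sp d) (s : Sp d) hu hs1 ε hs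

/-- Counting bound: if the final state takes at most `N` values and the output is drawn from
a kernel of the final state, the success probability is at most `N 2^(d+1) ε^(d-1)`. -/
theorem success_le (d : ℕ) (hd : 1 ≤ d) (N : ℕ) {Ω : Type*} [MeasurableSpace Ω]
    (P : Measure Ω) (S : Ω → sphere (0 : Sp d) 1) (hS : Measurable S)
    (hlaw : P.map S = sphereUniform d) (J : Ω → Fin N)
    (κ : Kernel (Fin N) (sphere (0 : Sp d) 1)) [IsMarkovKernel κ]
    (ε : ℝ) (hε : 0 < ε) (hε1 : ε ≤ 1) :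
    successProb P S J κ ε ≤
      (N : ENNReal) * ENNReal.ofReal (2 ^ (d + 1) * ε ^ (d - 1)) := by
  change ∫⁻ ω, κ (J ω) {u | Real.arccos (inner ℝ (u : Sp d) (S ω : Sp d)) ≤ ε} ∂P ≤
      (N : ENNReal) * ENNReal.ofReal (2 ^ (d + 1) * ε ^ (d - 1))
  haveI := isProbabilityMeasure_sphereUniform d hd
  set B := ENNReal.ofReal (2 ^ (d + 1) * ε ^ (d - 1)) with hB
  let f : Fin N → sphere (0 : Sp d) 1 → ENNReal := fun j s => κ j (Prod.mk s ⁻¹' closeSet d ε)
  have hf : ∀ j, Measurable (f j) := fun j =>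
    measurable_measure_prodMk_left (measurableSet_closeSet d ε)
  have h1 : ∀ ω, κ (J ω) {u | Real.arccos (inner ℝ (u : Sp d) (S ω : Sp d)) ≤ ε} ≤
      ∑ j, f j (S ω) := by
    intro ω
    exact Finset.single_le_sum (f := fun j => f j (S ω)) (fun _ _ => zero_le)
      (Finset.mem_univ (J ω))
  have h2 : ∀ j, ∫⁻ ω, f j (S ω) ∂P ≤ B := by
    intro j
    have e1 : ∫⁻ ω, f j (S ω) ∂P = ∫⁻ s, f j s ∂(sphereUniform d) := by
      rw [← hlaw, lintegral_map (hf j) hS]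
    rw [e1]
    have e2 : ∫⁻ s, f j s ∂(sphereUniform d) = (sphereUniform d).prod (κ j) (closeSet d ε) :=
      (Measure.prod_apply (measurableSet_closeSet d ε)).symm
    rw [e2, Measure.prod_apply_symm (measurableSet_closeSet d ε)]
    calc ∫⁻ u, sphereUniform d ((fun s => (s, u)) ⁻¹' closeSet d ε) ∂(κ j)
        ≤ ∫⁻ _u, B ∂(κ j) := lintegral_mono (fun u => section_le d hd ε hε hε1 u)
      _ = B := by simp
  calc ∫⁻ ω, κ (J ω) {u | Real.arccos (inner ℝ (u : Sp d) (S ω : Sp d)) ≤ ε} ∂P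
      ≤ ∫⁻ ω, ∑ j, f j (S ω) ∂P := lintegral_mono h1
    _ = ∑ j, ∫⁻ ω, f j (S ω) ∂P :=
        lintegral_finsetSum _ (fun j _ => (hf j).comp hS)
    _ ≤ ∑ _j : Fin N, B := Finset.sum_le_sum (fun j _ => h2 j)
    _ = (N : ENNReal) * B := by simp

/-- Arithmetic: with `N ≤ 2^M` states and `M + d + 2 ≤ (d-1) log₂(1/ε)` the bound is `≤ 1/2`. -/
theorem bound_lt (d : ℕ) (hd : 1 ≤ d) (M N : ℕ) (hN : N ≤ 2 ^ M) (ε : ℝ) (hε : 0 < ε)
    (hM : (M : ℝ) + d + 2 ≤ ((d : ℝ) - 1) * Real.logb 2 (1 / ε)) :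
    (N : ENNReal) * ENNReal.ofReal (2 ^ (d + 1) * ε ^ (d - 1)) < 2 / 3 := by
  have hNr : (N : ℝ) ≤ 2 ^ M := by exact_mod_cast hN
  have hεpow : ε ^ (d - 1) = (2 : ℝ) ^ (-(((d : ℝ) - 1) * Real.logb 2 (1 / ε))) := by
    have h1 : ε = (2 : ℝ) ^ (-Real.logb 2 (1 / ε)) := by
      rw [one_div, Real.logb_inv, neg_neg, Real.rpow_logb (by norm_num) (by norm_num) hε]
    have h2 : (((d - 1 : ℕ)) : ℝ) = (d : ℝ) - 1 := by
      rw [Nat.cast_sub hd]; simp
    conv_lhs => rw [h1]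
    rw [← Real.rpow_natCast, ← Real.rpow_mul (by norm_num), h2]
    congr 1; ring
  have key : (N : ℝ) * (2 ^ (d + 1) * ε ^ (d - 1)) ≤ 1 / 2 := by
    have hpos : (0 : ℝ) ≤ 2 ^ (d + 1) * ε ^ (d - 1) := by positivity
    calc (N : ℝ) * (2 ^ (d + 1) * ε ^ (d - 1))
        ≤ 2 ^ M * (2 ^ (d + 1) * ε ^ (d - 1)) := mul_le_mul_of_nonneg_right hNr hpos
      _ = (2 : ℝ) ^ ((M : ℝ) + (d + 1) + (-(((d : ℝ) - 1) * Real.logb 2 (1 / ε)))) := by
          rw [hεpow, Real.rpow_add (by norm_num), Real.rpow_add (by norm_num),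
            Real.rpow_natCast]
          have : (2 : ℝ) ^ ((d : ℝ) + 1) = 2 ^ (d + 1) := by
            rw [← Real.rpow_natCast]; push_cast; rfl
          rw [this]; ring
      _ ≤ (2 : ℝ) ^ (-1 : ℝ) := by
          apply Real.rpow_le_rpow_of_exponent_le (by norm_num)
          linarith
      _ = 1 / 2 := by rw [Real.rpow_neg_one]; norm_num
  have h3 : (N : ENNReal) * ENNReal.ofReal (2 ^ (d + 1) * ε ^ (d - 1)) =
      ENNReal.ofReal ((N : ℝ) * (2 ^ (d + 1) * ε ^ (d - 1))) := by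
    rw [← ENNReal.ofReal_natCast N, ← ENNReal.ofReal_mul (by positivity)]
  rw [h3]
  have h4 : (2 / 3 : ENNReal) = ENNReal.ofReal (2 / 3) := by
    rw [ENNReal.ofReal_div_of_pos (by norm_num)]; simp
  rw [h4]
  exact (ENNReal.ofReal_lt_ofReal_iff (by norm_num)).mpr (by linarith)

end Vale.Agent.Lib.P309
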